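import Mathlib

/-!
# The rearrangement inequality for gaps (CLUB)

Pure finite combinatorics on a type `V` with a relation `C` (closed adjacency), relations
`g`, `K`, `M` on pairs.
-/

namespace Vale.Agent.P038.H408

open Finset

open scoped Classical

variable {V : Type*} [Fintype V]

/-- members of `Kr` hit by the closed out-neighbourhood of `S` -/
noncomputable def hit (C : V → V → Prop) (Kr : V → Prop) (S : Finset V) : Finset V :=
  univ.filter fun y => Kr y ∧ ∃ b ∈ S, C b y

theorem mem_hit {C : V → V → Prop} {Kr : V → Prop} {S : Finset V} {y : V} :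
    y ∈ hit C Kr S ↔ Kr y ∧ ∃ b ∈ S, C b y := by
  simp [hit]

theorem hit_mono {C : V → V → Prop} {Kr : V → Prop} {S T : Finset V} (h : S ⊆ T) :
    hit C Kr S ⊆ hit C Kr T := by
  intro y hy
  rw [mem_hit] at hy ⊢
  obtain ⟨h1, b, hb, h2⟩ := hy
  exact ⟨h1, b, h hb, h2⟩

theorem exists_max_minimizer (G : Finset V) (φ : Finset V → ℤ) :
    ∃ S, S ⊆ G ∧ (∀ T, T ⊆ G → φ S ≤ φ T) ∧ (∀ T, T ⊆ G → φ T ≤ φ S → T.card ≤ S.card) := by
  obtain ⟨S0, hS0, hmin⟩ := Finset.exists_min_image G.powerset φ ⟨∅, by simp⟩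
  have hne : (G.powerset.filter fun T => φ T ≤ φ S0).Nonempty :=
    ⟨S0, by simp only [mem_filter]; exact ⟨hS0, le_refl _⟩⟩
  obtain ⟨S, hS, hmax⟩ := Finset.exists_max_image _ (fun T : Finset V => T.card) hne
  rw [mem_filter, mem_powerset] at hS
  refine ⟨S, hS.1, ?_, ?_⟩
  · intro T hT
    exact hS.2.trans (hmin T (mem_powerset.2 hT))
  · intro T hT hle
    apply hmax T
    rw [mem_filter, mem_powerset]
    exact ⟨hT, hle.trans hS.2⟩

/-- the parametric cost -/
noncomputable def phi (C : V → V → Prop) (Kr : V → Prop) (L k : ℕ) (S : Finset V) : ℤ :=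
  (L : ℤ) * ((hit C Kr S).card : ℤ) - (k : ℤ) * (S.card : ℤ)

/-- a chosen largest minimiser -/
noncomputable def msel (C : V → V → Prop) (Kr : V → Prop) (G : Finset V) (L k : ℕ) : Finset V :=
  Classical.choose (exists_max_minimizer G (phi C Kr L k))

theorem msel_sub (C : V → V → Prop) (Kr : V → Prop) (G : Finset V) (L k : ℕ) :
    msel C Kr G L k ⊆ G :=
  (Classical.choose_spec (exists_max_minimizer G (phi C Kr L k))).1

theorem msel_min (C : V → V → Prop) (Kr : V → Prop) (G : Finset V) (L k : ℕ) {T : Finset V}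
    (hT : T ⊆ G) : phi C Kr L k (msel C Kr G L k) ≤ phi C Kr L k T :=
  (Classical.choose_spec (exists_max_minimizer G (phi C Kr L k))).2.1 T hT

theorem msel_max (C : V → V → Prop) (Kr : V → Prop) (G : Finset V) (L k : ℕ) {T : Finset V}
    (hT : T ⊆ G) (h : phi C Kr L k T ≤ phi C Kr L k (msel C Kr G L k)) :
    T.card ≤ (msel C Kr G L k).card :=
  (Classical.choose_spec (exists_max_minimizer G (phi C Kr L k))).2.2 T hT h

/-- MONOTONE: the selection for a smaller ground set and a larger resource set is smaller. -/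
theorem msel_mono (C : V → V → Prop) (Kr Kb : V → Prop) (G B : Finset V) (L k : ℕ)
    (hK : ∀ y, Kr y → Kb y)
    (hB : ∀ b ∈ B, b ∉ G → ∀ y, C b y → ¬ Kr y) :
    ∀ b ∈ msel C Kb B L k, b ∈ G → b ∈ msel C Kr G L k := by
  set S := msel C Kb B L k with hS
  set T := msel C Kr G L k with hT
  have hSB : S ⊆ B := msel_sub C Kb B L k
  have hTG : T ⊆ G := msel_sub C Kr G L k
  set S1 := S.filter (fun b => b ∈ G) with hS1
  set W := S1 \ T with hW
  set S0 := S \ W with hS0
  have hWS : W ⊆ S := fun b hb => (mem_filter.1 (mem_sdiff.1 hb).1).1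
  have hS0S : S0 ⊆ S := sdiff_subset
  have h1 : phi C Kb L k S ≤ phi C Kb L k S0 := msel_min C Kb B L k (hS0S.trans hSB)
  have hcS : S.card = S0.card + W.card := by
    rw [hS0, card_sdiff_add_card_eq_card hWS]
  have hTS1 : T ∪ S1 ⊆ G := by
    apply union_subset hTG
    intro b hb
    exact (mem_filter.1 hb).2
  have hcT : (T ∪ S1).card = T.card + W.card := by
    rw [hW, ← card_union_of_disjoint (disjoint_sdiff), union_sdiff_self_eq_union]
  have hsub : hit C Kr (T ∪ S1) \ hit C Kr T ⊆ hit C Kb S \ hit C Kb S0 := by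
    intro y hy
    rw [mem_sdiff, mem_hit, mem_hit] at hy
    obtain ⟨⟨hKy, b, hb, hCb⟩, hnot⟩ := hy
    have hnoT : ∀ b' ∈ T, ¬ C b' y := fun b' hb' hc => hnot ⟨hKy, b', hb', hc⟩
    have hbS1 : b ∈ S1 := by
      rcases mem_union.1 hb with h | h
      · exact absurd hCb (hnoT b h)
      · exact h
    rw [mem_sdiff, mem_hit, mem_hit]
    refine ⟨⟨hK y hKy, b, (mem_filter.1 hbS1).1, hCb⟩, ?_⟩
    rintro ⟨-, b0, hb0, hC0⟩
    rw [hS0, mem_sdiff, hW, mem_sdiff, hS1, mem_filter] at hb0
    obtain ⟨hb0S, hb0n⟩ := hb0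
    by_cases hG : b0 ∈ G
    · have : b0 ∈ T := by
        by_contra hnT
        exact hb0n ⟨⟨hb0S, hG⟩, hnT⟩
      exact hnoT b0 this hC0
    · exact hB b0 (hSB hb0S) hG y hC0 hKy
  have hcard := card_le_card hsub
  have e1 : (hit C Kr (T ∪ S1) \ hit C Kr T).card + (hit C Kr T).card
      = (hit C Kr (T ∪ S1)).card := card_sdiff_add_card_eq_card (hit_mono subset_union_left)
  have e2 : (hit C Kb S \ hit C Kb S0).card + (hit C Kb S0).card
      = (hit C Kb S).card := card_sdiff_add_card_eq_card (hit_mono hS0S)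
  have hle : phi C Kr L k (T ∪ S1) ≤ phi C Kr L k T := by
    unfold phi at h1 ⊢
    have hL : (0 : ℤ) ≤ (L : ℤ) := Int.natCast_nonneg _
    have c1 : ((hit C Kr (T ∪ S1)).card : ℤ) - (hit C Kr T).card
        ≤ ((hit C Kb S).card : ℤ) - (hit C Kb S0).card := by
      omega
    have c2 := mul_le_mul_of_nonneg_left c1 hL
    have c3 : ((T ∪ S1).card : ℤ) = T.card + W.card := by exact_mod_cast hcT
    have c4 : (S.card : ℤ) = S0.card + W.card := by exact_mod_cast hcS
    rw [c3]
    rw [c4] at h1
    nlinarith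
  have hmax := msel_max C Kr G L k hTS1 hle
  have hW0 : W.card = 0 := by
    have : (T ∪ S1).card ≤ T.card := hmax
    omega
  have hWe : W = ∅ := card_eq_zero.1 hW0
  intro b hb hbG
  by_contra hbT
  have : b ∈ W := by
    rw [hW, mem_sdiff, hS1, mem_filter]
    exact ⟨⟨hb, hbG⟩, hbT⟩
  rw [hWe] at this
  simp at this

/-- telescoping, lower bound (rows) -/
theorem row_sum (C : V → V → Prop) (Kr : V → Prop) (G : Finset V) (L m : ℕ)
    (hm : L * Fintype.card V ≤ L + m) :
    (L : ℤ) * ((hit C Kr G).card : ℤ) - (L : ℤ) * (G.card : ℤ)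
      ≤ ∑ i ∈ range m, ((G \ msel C Kr G L (L + i)).card : ℤ) := by
  have step : ∀ j : ℕ, phi C Kr L (L + j) (msel C Kr G L (L + j))
      ≤ - ∑ i ∈ range j, ((msel C Kr G L (L + i)).card : ℤ) := by
    intro j
    induction j with
    | zero =>
      have h := msel_min C Kr G L (L + 0) (T := ∅) (by simp)
      have h2 : phi C Kr L (L + 0) (∅ : Finset V) = 0 := by
        simp [phi, hit]
      rw [h2] at h
      simpa using h
    | succ j ih =>
      have h := msel_min C Kr G L (L + (j + 1)) (msel_sub C Kr G L (L + j))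
      have h2 : phi C Kr L (L + (j + 1)) (msel C Kr G L (L + j))
          = phi C Kr L (L + j) (msel C Kr G L (L + j)) - ((msel C Kr G L (L + j)).card : ℤ) := by
        unfold phi
        push_cast
        ring
      rw [sum_range_succ]
      linarith
  have hN := step m
  have hlow : (L : ℤ) * ((hit C Kr G).card : ℤ) - ((L + m : ℕ) : ℤ) * (G.card : ℤ)
      ≤ phi C Kr L (L + m) (msel C Kr G L (L + m)) := by
    set S := msel C Kr G L (L + m) with hS
    have hSG : S ⊆ G := msel_sub C Kr G L (L + m)
    rcases eq_or_ne S G with h | h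
    · rw [h]
      unfold phi
      exact le_refl _
    · have hlt : S.card + 1 ≤ G.card := card_lt_card (ssubset_of_subset_of_ne hSG h)
      unfold phi
      have h3 : ((hit C Kr G).card : ℤ) ≤ (Fintype.card V : ℤ) := by
        exact_mod_cast card_le_univ _
      have h4 : (0 : ℤ) ≤ ((hit C Kr S).card : ℤ) := Int.natCast_nonneg _
      have hL : (0 : ℤ) ≤ (L : ℤ) := Int.natCast_nonneg _
      have h5 : (L : ℤ) * (hit C Kr G).card ≤ (L : ℤ) * (Fintype.card V : ℤ) :=
        mul_le_mul_of_nonneg_left h3 hL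
      have h6 : (L : ℤ) * (Fintype.card V : ℤ) ≤ ((L + m : ℕ) : ℤ) := by exact_mod_cast hm
      have h7 : (0 : ℤ) ≤ (L : ℤ) * ((hit C Kr S).card : ℤ) := mul_nonneg hL h4
      have h8 : (S.card : ℤ) + 1 ≤ (G.card : ℤ) := by exact_mod_cast hlt
      have h9 : (0 : ℤ) ≤ ((L + m : ℕ) : ℤ) := Int.natCast_nonneg _
      nlinarith
  have hs : ∑ i ∈ range m, ((G \ msel C Kr G L (L + i)).card : ℤ)
      = (m : ℤ) * (G.card : ℤ) - ∑ i ∈ range m, ((msel C Kr G L (L + i)).card : ℤ) := by
    have : ∀ i ∈ range m, ((G \ msel C Kr G L (L + i)).card : ℤ)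
        = (G.card : ℤ) - ((msel C Kr G L (L + i)).card : ℤ) := by
      intro i _
      have := card_sdiff_add_card_eq_card (msel_sub C Kr G L (L + i))
      omega
    rw [sum_congr rfl this, sum_sub_distrib]
    simp
  rw [hs]
  push_cast at hlow
  nlinarith

/-- telescoping, upper bound -/
theorem col_sum (C : V → V → Prop) (Kr : V → Prop) (G : Finset V) (L m : ℕ)
    (hall : ∀ S, S ⊆ G → S.card ≤ (hit C Kr S).card) :
    ∑ i ∈ range m, ((G \ msel C Kr G L (L + i)).card : ℤ)
      ≤ (L : ℤ) * ((hit C Kr G).card : ℤ) - (L : ℤ) * (G.card : ℤ) + (G.card : ℤ) := by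
  have step : ∀ j : ℕ, (0 : ℤ) ≤ phi C Kr L (L + j) (msel C Kr G L (L + j))
      + ∑ i ∈ range j, ((msel C Kr G L (L + (i + 1))).card : ℤ) := by
    intro j
    induction j with
    | zero =>
      have hS := hall _ (msel_sub C Kr G L (L + 0))
      unfold phi
      have hL : (0 : ℤ) ≤ (L : ℤ) := Int.natCast_nonneg _
      have h1 : ((msel C Kr G L (L + 0)).card : ℤ) ≤ ((hit C Kr (msel C Kr G L (L + 0))).card : ℤ) := by
        exact_mod_cast hS
      have := mul_le_mul_of_nonneg_left h1 hL
      simp only [range_zero, sum_empty, add_zero] at *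
      linarith
    | succ j ih =>
      have h := msel_min C Kr G L (L + j) (msel_sub C Kr G L (L + (j + 1)))
      have h2 : phi C Kr L (L + j) (msel C Kr G L (L + (j + 1)))
          = phi C Kr L (L + (j + 1)) (msel C Kr G L (L + (j + 1)))
            + ((msel C Kr G L (L + (j + 1))).card : ℤ) := by
        unfold phi
        push_cast
        ring
      rw [sum_range_succ]
      linarith
  have hN := step m
  have hup : phi C Kr L (L + m) (msel C Kr G L (L + m))
      ≤ (L : ℤ) * ((hit C Kr G).card : ℤ) - ((L + m : ℕ) : ℤ) * (G.card : ℤ) :=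
    msel_min C Kr G L (L + m) (subset_refl G)
  have hshift : ∑ i ∈ range m, ((msel C Kr G L (L + (i + 1))).card : ℤ)
      ≤ ∑ i ∈ range m, ((msel C Kr G L (L + i)).card : ℤ) + (G.card : ℤ) := by
    have e1 := sum_range_succ' (fun i => ((msel C Kr G L (L + i)).card : ℤ)) m
    have e2 := sum_range_succ (fun i => ((msel C Kr G L (L + i)).card : ℤ)) m
    have h3 : ((msel C Kr G L (L + m)).card : ℤ) ≤ (G.card : ℤ) := by
      exact_mod_cast card_le_card (msel_sub C Kr G L (L + m))
    have h4 : (0 : ℤ) ≤ ((msel C Kr G L (L + 0)).card : ℤ) := Int.natCast_nonneg _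
    linarith
  have hs : ∑ i ∈ range m, ((G \ msel C Kr G L (L + i)).card : ℤ)
      = (m : ℤ) * (G.card : ℤ) - ∑ i ∈ range m, ((msel C Kr G L (L + i)).card : ℤ) := by
    have : ∀ i ∈ range m, ((G \ msel C Kr G L (L + i)).card : ℤ)
        = (G.card : ℤ) - ((msel C Kr G L (L + i)).card : ℤ) := by
      intro i _
      have := card_sdiff_add_card_eq_card (msel_sub C Kr G L (L + i))
      omega
    rw [sum_congr rfl this, sum_sub_distrib]
    simp
  rw [hs]
  push_cast at hup
  nlinarith

/-- counting pairs by the first coordinate -/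
theorem card_pairs (R : V → V → Prop) :
    (univ.filter fun q : V × V => R q.1 q.2).card
      = ∑ a : V, (univ.filter fun b : V => R a b).card := by
  rw [card_filter, Fintype.sum_prod_type]
  apply sum_congr rfl
  intro a _
  rw [card_filter]

/-- counting pairs by the second coordinate -/
theorem card_pairs' (R : V → V → Prop) :
    (univ.filter fun q : V × V => R q.1 q.2).card
      = ∑ b : V, (univ.filter fun a : V => R a b).card := by
  rw [card_filter, Fintype.sum_prod_type_right]
  apply sum_congr rfl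
  intro a _
  rw [card_filter]

/-- double counting, with arbitrary decidability instances -/
theorem card_swap (R : V → V → Prop) {d1 : ∀ a, DecidablePred fun b => R a b}
    {d2 : ∀ b, DecidablePred fun a => R a b} :
    ∑ a : V, (@Finset.filter V (fun b => R a b) (d1 a) univ).card
      = ∑ b : V, (@Finset.filter V (fun a => R a b) (d2 b) univ).card := by
  simp only [card_filter]
  rw [sum_comm]
  apply sum_congr rfl
  intro b _
  apply sum_congr rfl
  intro a _
  by_cases h : R a b
  · rw [if_pos h, if_pos h]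
  · rw [if_neg h, if_neg h]

/-- (CLUB). -/
theorem club (C g K M : V → V → Prop)
    (hKM : ∀ a a' b, C a a' → M a' b → ¬ g a b → ∀ y, C b y → ¬ K a y)
    (row : ∀ a, ∀ S : Finset V, (∀ b ∈ S, g a b) → S.card ≤ (hit C (K a) S).card)
    (col : ∀ b, ∀ T : Finset V, (∀ a ∈ T, g a b) →
      T.card ≤ (univ.filter fun a' => M a' b ∧ ∃ a ∈ T, C a a').card) :
    ∑ a : V, (hit C (K a) (univ.filter fun b => g a b)).card
      + ∑ a' : V, (univ.filter fun b => M a' b ∧ ∃ a, g a b ∧ C a a').card
    ≤ ∑ a : V, (univ.filter fun b => g a b).card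
      + ∑ a' : V, (univ.filter fun y =>
          (∃ a, C a a' ∧ K a y) ∧ ∃ b, C b y ∧ M a' b).card := by
  set n := Fintype.card V with hn
  set L : ℕ := n * n + 1 with hL
  set m : ℕ := L * n with hm
  -- the ground sets
  set G : V → Finset V := fun a => univ.filter fun b => g a b with hG
  set Kb : V → V → Prop := fun a' y => ∃ a, C a a' ∧ K a y with hKb
  set B : V → Finset V := fun a' => univ.filter fun b => M a' b ∧ ∃ a, g a b ∧ C a a' with hB
  have hallB : ∀ a', ∀ c : ℕ, ∀ S : Finset V, S.card = c → S ⊆ B a' →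
      S.card ≤ (hit C (Kb a') S).card := by
    intro a' c
    induction c using Nat.strong_induction_on with
    | _ c ih =>
      intro S hc hS
      rcases S.eq_empty_or_nonempty with h | ⟨b, hb⟩
      · rw [h]; simp
      · have hbB := hS hb
        rw [hB] at hbB
        simp only [mem_filter, mem_univ, true_and] at hbB
        obtain ⟨hMb, a, hga, hCa⟩ := hbB
        set S1 := S.filter (fun b => g a b) with hS1
        set S2 := S.filter (fun b => ¬ g a b) with hS2
        have hsplit : S1.card + S2.card = S.card := by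
          rw [hS1, hS2]
          exact card_filter_add_card_filter_not (s := S) (fun b => g a b)
        have hpos : 0 < S1.card := card_pos.2 ⟨b, mem_filter.2 ⟨hb, hga⟩⟩
        have h1 := row a S1 (fun b hb => (mem_filter.1 hb).2)
        have h2 := ih S2.card (by omega) S2 rfl ((filter_subset _ _).trans hS)
        have hdis : Disjoint (hit C (K a) S1) (hit C (Kb a') S2) := by
          rw [Finset.disjoint_left]
          intro y hy1 hy2
          rw [mem_hit] at hy1 hy2
          obtain ⟨hKy, -⟩ := hy1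
          obtain ⟨-, b2, hb2, hC2⟩ := hy2
          have hb2' := mem_filter.1 hb2
          have hb2B := hS hb2'.1
          rw [hB] at hb2B
          simp only [mem_filter, mem_univ, true_and] at hb2B
          exact hKM a a' b2 hCa hb2B.1 hb2'.2 y hC2 hKy
        have hsub : hit C (K a) S1 ∪ hit C (Kb a') S2 ⊆ hit C (Kb a') S := by
          apply union_subset
          · intro y hy
            rw [mem_hit] at hy ⊢
            obtain ⟨hKy, b1, hb1, hC1⟩ := hy
            exact ⟨⟨a, hCa, hKy⟩, b1, (mem_filter.1 hb1).1, hC1⟩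
          · exact hit_mono (filter_subset _ _)
        have h3 := card_le_card hsub
        rw [card_union_of_disjoint hdis] at h3
        omega
  -- the key inequality for each parameter
  have key : ∀ k : ℕ, ∑ a : V, ((G a \ msel C (K a) (G a) L k).card : ℤ)
      ≤ ∑ a' : V, ((B a' \ msel C (Kb a') (B a') L k).card : ℤ) := by
    intro k
    set T : V → V → Prop := fun a b => g a b ∧ b ∉ msel C (K a) (G a) L k with hT
    have e1 : ∑ a : V, (G a \ msel C (K a) (G a) L k).card
        = ∑ b : V, (univ.filter fun a : V => T a b).card := by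
      rw [← card_swap T (d1 := fun _ _ => Classical.propDecidable _)]
      apply sum_congr rfl
      intro a _
      congr 1
      ext b
      simp [hG, hT]
    have e2 : ∑ b : V, (univ.filter fun a : V => T a b).card
        ≤ ∑ b : V, (univ.filter fun a' : V => M a' b ∧ ∃ a, T a b ∧ C a a').card := by
      apply sum_le_sum
      intro b _
      have := col b (univ.filter fun a : V => T a b) (by
        intro a ha
        simp only [mem_filter, mem_univ, true_and] at ha
        exact ha.1)
      refine this.trans (card_le_card ?_)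
      intro a' ha'
      simp only [mem_filter, mem_univ, true_and] at ha' ⊢
      exact ha'
    have e3 : ∑ b : V, (univ.filter fun a' : V => M a' b ∧ ∃ a, T a b ∧ C a a').card
        ≤ ∑ a' : V, (B a' \ msel C (Kb a') (B a') L k).card := by
      rw [← card_swap (fun a' b => M a' b ∧ ∃ a, T a b ∧ C a a')
        (d1 := fun _ _ => Classical.propDecidable _)]
      apply sum_le_sum
      intro a' _
      apply card_le_card
      intro b hb
      simp only [mem_filter, mem_univ, true_and] at hb
      obtain ⟨hM, a, ⟨hga, hnot⟩, hCa⟩ := hb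
      rw [mem_sdiff]
      constructor
      · rw [hB]
        simp only [mem_filter, mem_univ, true_and]
        exact ⟨hM, a, hga, hCa⟩
      · intro hin
        apply hnot
        refine msel_mono C (K a) (Kb a') (G a) (B a') L k (fun y hy => ⟨a, hCa, hy⟩) ?_ b hin ?_
        · intro b1 hb1 hb1G y hC hK
          rw [hB] at hb1
          rw [hG] at hb1G
          simp only [mem_filter, mem_univ, true_and] at hb1 hb1G
          exact hKM a a' b1 hCa hb1.1 hb1G y hC hK
        · rw [hG]
          simp only [mem_filter, mem_univ, true_and]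
          exact hga
    have e4 : ∑ a : V, (G a \ msel C (K a) (G a) L k).card
        ≤ ∑ a' : V, (B a' \ msel C (Kb a') (B a') L k).card := by
      rw [e1]
      exact e2.trans e3
    exact_mod_cast e4
  -- sum over the parameters
  have low : ∑ a : V, ((L : ℤ) * ((hit C (K a) (G a)).card : ℤ) - (L : ℤ) * ((G a).card : ℤ))
      ≤ ∑ i ∈ range m, ∑ a : V, ((G a \ msel C (K a) (G a) L (L + i)).card : ℤ) := by
    rw [sum_comm]
    apply sum_le_sum
    intro a _
    exact row_sum C (K a) (G a) L m (by rw [hm, ← hn]; omega)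
  have up : ∑ i ∈ range m, ∑ a' : V, ((B a' \ msel C (Kb a') (B a') L (L + i)).card : ℤ)
      ≤ ∑ a' : V, ((L : ℤ) * ((hit C (Kb a') (B a')).card : ℤ) - (L : ℤ) * ((B a').card : ℤ)
          + ((B a').card : ℤ)) := by
    rw [sum_comm]
    apply sum_le_sum
    intro a' _
    exact col_sum C (Kb a') (B a') L m (fun S hS => hallB a' S.card S rfl hS)
  have mid : ∑ i ∈ range m, ∑ a : V, ((G a \ msel C (K a) (G a) L (L + i)).card : ℤ)
      ≤ ∑ i ∈ range m, ∑ a' : V, ((B a' \ msel C (Kb a') (B a') L (L + i)).card : ℤ) :=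
    sum_le_sum fun i _ => key (L + i)
  have tot := low.trans (mid.trans up)
  -- identify the last cardinality
  have c4 : ∑ a' : V, (univ.filter fun y =>
          (∃ a, C a a' ∧ K a y) ∧ ∃ b, C b y ∧ M a' b).card
      = ∑ a' : V, (hit C (Kb a') (B a')).card := by
    apply sum_congr rfl
    intro a' _
    congr 1
    ext y
    simp only [mem_filter, mem_univ, true_and, mem_hit, hB, hKb]
    constructor
    · rintro ⟨⟨a, hCa, hKa⟩, b, hCb, hM⟩
      refine ⟨⟨a, hCa, hKa⟩, b, ⟨hM, a, ?_, hCa⟩, hCb⟩
      by_contra hng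
      exact hKM a a' b hCa hM hng y hCb hKa
    · rintro ⟨h1, b, ⟨hM, -⟩, hCb⟩
      exact ⟨h1, b, hCb, hM⟩
  rw [c4]
  change ∑ a : V, (hit C (K a) (G a)).card + ∑ a' : V, (B a').card
    ≤ ∑ a : V, (G a).card + ∑ a' : V, (hit C (Kb a') (B a')).card
  simp only [sum_sub_distrib, sum_add_distrib, ← mul_sum] at tot
  have hD2 : ∑ a' : V, (B a').card ≤ n * n := by
    calc ∑ a' : V, (B a').card ≤ ∑ _a' : V, n := sum_le_sum fun a' _ => card_le_univ _
      _ = n * n := by simp [hn]
  have hD2' : (∑ a' : V, ((B a').card : ℤ)) ≤ (n : ℤ) * n := by exact_mod_cast hD2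
  have hLz : (L : ℤ) = (n : ℤ) * n + 1 := by rw [hL]; push_cast; ring
  zify
  by_contra hcon
  push_neg at hcon
  have hn0 : (0 : ℤ) ≤ (n : ℤ) * n := by positivity
  have hL0 : (0 : ℤ) ≤ (L : ℤ) := Int.natCast_nonneg _
  nlinarith

end Vale.Agent.P038.H408
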